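import Vale.Agent.P318.R2.H202.Scheme

/-!
# Signed schemes on finite abelian groups

The pairs of a finite abelian group, classified by the subgroup generated by the difference, form a
signed scheme.
-/

open Finset

set_option linter.unusedSectionVars false

namespace Vale.Agent.P318.R2.H344

open Vale.Agent.P318.R2.H202

section build

variable {A : Type*} [AddCommGroup A] [Fintype A]

/-- products of differences of the indicator of a subgroup, one prime after the other -/
lemma exists_signed (K : AddSubgroup A) (z : ℕ → A) (P : Finset ℕ)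
    (hP : ∀ p ∈ P, p.Prime ∧ z p ∉ K ∧ p • z p ∈ K) :
    ∃ f : A → ℝ, (∀ x, f x = -1 ∨ f x = 0 ∨ f x = 1) ∧
      (∀ x, ∀ k ∈ K, f (x + k) = f x) ∧
      (∀ p ∈ P, ∃ g : A → ℝ, (∀ x, ∀ k ∈ K, g (x + k) = g x) ∧ ∀ x, f x = g x - g (x - z p)) ∧
      (∀ x, f x ≠ 0 → (∏ p ∈ P, p) • x ∈ K) ∧
      (∀ ψ : AddChar A ℂ, (∀ k ∈ K, ψ k = 1) → (∀ p ∈ P, ψ (z p) ≠ 1) →
        ∑ x, (f x : ℂ) * ψ x ≠ 0) := by
  classical
  induction P using Finset.induction_on with
  | empty =>
    refine ⟨fun x => if x ∈ K then 1 else 0, fun x => ?_, fun x k hk => ?_, by simp,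
      fun x hx => ?_, fun ψ h1 _ => ?_⟩
    · by_cases h : x ∈ K
      · exact Or.inr (Or.inr (if_pos h))
      · exact Or.inr (Or.inl (if_neg h))
    · simp only [AddSubgroup.add_mem_cancel_right K hk]
    · have : x ∈ K := by
        by_contra h
        exact hx (if_neg h)
      simpa using this
    · have h2 : ∑ x, (((if x ∈ K then (1 : ℝ) else 0) : ℝ) : ℂ) * ψ x =
          ∑ x, if x ∈ K then (1 : ℂ) else 0 := by
        refine sum_congr rfl fun x _ => ?_
        split_ifs with h
        · rw [h1 x h]; simp
        · simp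
      rw [h2, ← sum_filter, sum_const, nsmul_eq_mul, mul_one, Nat.cast_ne_zero,
        ← Nat.pos_iff_ne_zero, card_pos]
      exact ⟨0, by simp⟩
  | insert p P hp ih =>
    obtain ⟨f, h1, h2, h3, h4, h5⟩ := ih fun q hq => hP q (mem_insert_of_mem hq)
    obtain ⟨hpp, hz, hz'⟩ := hP p (mem_insert_self _ _)
    have hcop : (∏ q ∈ P, q).Coprime p := by
      refine Nat.Coprime.prod_left fun q hq => ?_
      refine (Nat.coprime_primes (hP q (mem_insert_of_mem hq)).1 hpp).2 ?_
      rintro rfl
      exact hp hq
    have hnot : (∏ q ∈ P, q) • z p ∉ K := by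
      intro hK
      apply hz
      have h6 := Nat.gcd_eq_gcd_ab (∏ q ∈ P, q) p
      rw [hcop.gcd_eq_one] at h6
      have h7 : z p = (Nat.gcdA (∏ q ∈ P, q) p) • ((∏ q ∈ P, q) • z p) +
          (Nat.gcdB (∏ q ∈ P, q) p) • (p • z p) := by
        rw [← natCast_zsmul (z p) p, ← natCast_zsmul (z p) (∏ q ∈ P, q), smul_smul, smul_smul,
          ← add_smul]
        rw [mul_comm (Nat.gcdA _ _), mul_comm (Nat.gcdB _ _), ← h6]
        simp
      rw [h7]
      exact K.add_mem (K.zsmul_mem hK _) (K.zsmul_mem hz' _)
    refine ⟨fun x => f x - f (x - z p), fun x => ?_, fun x k hk => ?_, fun q hq => ?_,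
      fun x hx => ?_, fun ψ hψ hψ' => ?_⟩
    · by_cases hx : f x = 0
      · simp only [hx, zero_sub]
        rcases h1 (x - z p) with h | h | h <;> rw [h] <;> norm_num
      · have : f (x - z p) = 0 := by
          by_contra hcon
          have h6 := h4 _ hx
          have h7 := h4 _ hcon
          rw [smul_sub] at h7
          apply hnot
          have := K.sub_mem h6 h7
          simpa using this
        simp only [this, sub_zero]
        exact h1 x
    · have h6 : x + k - z p = (x - z p) + k := by abel
      simp only [h2 x k hk, h6, h2 (x - z p) k hk]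
    · rw [mem_insert] at hq
      rcases hq with rfl | hq
      · exact ⟨f, h2, fun x => rfl⟩
      · obtain ⟨g, hg, hg'⟩ := h3 q hq
        refine ⟨fun x => g x - g (x - z p), fun x k hk => ?_, fun x => ?_⟩
        · have h6 : x + k - z p = (x - z p) + k := by abel
          simp only [hg x k hk, h6, hg (x - z p) k hk]
        · simp only [hg']
          rw [sub_right_comm x (z p) (z q)]
          ring
    · rw [prod_insert hp]
      by_cases h : f x = 0
      · have h6 : f (x - z p) ≠ 0 := by
          intro h7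
          apply hx
          simp [h, h7]
        have h7 := h4 _ h6
        have h8 : (p * ∏ q ∈ P, q) • x = p • ((∏ q ∈ P, q) • (x - z p)) +
            (∏ q ∈ P, q) • (p • z p) := by
          rw [smul_sub, smul_sub, smul_smul, smul_smul, smul_smul, mul_comm (∏ q ∈ P, q) p]
          abel
        rw [h8]
        exact K.add_mem (K.nsmul_mem h7 _) (K.nsmul_mem hz' _)
      · rw [← smul_smul]
        exact K.nsmul_mem (h4 _ h) _
    · have h6 := h5 ψ hψ fun q hq => hψ' q (mem_insert_of_mem hq)
      have h7 : ∑ x, ((f (x - z p) : ℝ) : ℂ) * ψ x = ψ (z p) * ∑ x, (f x : ℂ) * ψ x := by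
        rw [mul_sum, ← Equiv.sum_comp (Equiv.addRight (z p))
          (fun x => ((f (x - z p) : ℝ) : ℂ) * ψ x)]
        refine sum_congr rfl fun x _ => ?_
        simp only [Equiv.coe_addRight, add_sub_cancel_right, AddChar.map_add_eq_mul]
        ring
      have h8 : ∑ x, ((f x - f (x - z p) : ℝ) : ℂ) * ψ x =
          (1 - ψ (z p)) * ∑ x, (f x : ℂ) * ψ x := by
        push_cast
        simp only [sub_mul, sum_sub_distrib, one_mul]
        rw [h7]
      rw [h8]
      exact mul_ne_zero (sub_ne_zero.2 (hψ' p (mem_insert_self _ _)).symm) h6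

open Classical in
/-- the sums over subgroups give the sums over the generators of each subgroup -/
lemma gen_sum {f : A → ℝ}
    (h : ∀ C : AddSubgroup A, ∃ μ : ℝ, ∀ x, ∑ y ∈ univ.filter (fun y => y ∈ C), f (x - y) =
      μ * f x) (C : AddSubgroup A) :
    ∃ μ : ℝ, ∀ x, ∑ y ∈ univ.filter (fun y => AddSubgroup.zmultiples y = C), f (x - y) =
      μ * f x := by
  have key : ∀ (C : AddSubgroup A) x, ∑ y ∈ univ.filter (fun y => y ∈ C), f (x - y) =
      ∑ D ∈ (univ : Finset (AddSubgroup A)).filter (fun D => D ≤ C),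
        ∑ y ∈ univ.filter (fun y => AddSubgroup.zmultiples y = D), f (x - y) := by
    intro C x
    rw [← sum_fiberwise_of_maps_to (s := univ.filter fun y => y ∈ C)
      (t := (univ : Finset (AddSubgroup A)).filter (fun D => D ≤ C))
      (g := fun y => AddSubgroup.zmultiples y) (fun y hy => ?_)]
    · refine sum_congr rfl fun D hD => sum_congr ?_ fun _ _ => rfl
      ext y
      simp only [mem_filter, mem_univ, true_and] at hD ⊢
      constructor
      · exact fun h => h.2
      · rintro rfl
        exact ⟨hD (AddSubgroup.mem_zmultiples y), rfl⟩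
    · simp only [mem_filter, mem_univ, true_and] at hy ⊢
      exact (AddSubgroup.zmultiples_le_of_mem hy)
  induction C using WellFoundedLT.induction with
  | ind C ih =>
    choose! μ hμ using ih
    obtain ⟨m, hm⟩ := h C
    refine ⟨m - ∑ D ∈ (univ : Finset (AddSubgroup A)).filter (fun D => D < C), μ D,
      fun x => ?_⟩
    have h1 := key C x
    rw [hm] at h1
    have h2 : (univ : Finset (AddSubgroup A)).filter (fun D => D ≤ C) =
        insert C ((univ : Finset (AddSubgroup A)).filter (fun D => D < C)) := by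
      ext D
      simp only [mem_filter, mem_univ, true_and, mem_insert]
      exact le_iff_eq_or_lt
    rw [h2, sum_insert (by simp)] at h1
    have h3 : ∑ D ∈ (univ : Finset (AddSubgroup A)).filter (fun D => D < C),
        ∑ y ∈ univ.filter (fun y => AddSubgroup.zmultiples y = D), f (x - y) =
        ∑ D ∈ (univ : Finset (AddSubgroup A)).filter (fun D => D < C), μ D * f x :=
      sum_congr rfl fun D hD => hμ D (mem_filter.1 hD).2 x
    rw [h3, ← sum_mul] at h1
    rw [sub_mul]
    linarith

/-- the kernel of a character -/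
def chKer (χ : AddChar A ℂ) : AddSubgroup A where
  carrier := {x | χ x = 1}
  add_mem' := by
    intro a b (ha : χ a = 1) (hb : χ b = 1)
    change χ (a + b) = 1
    rw [AddChar.map_add_eq_mul, ha, hb, mul_one]
  zero_mem' := χ.map_zero_eq_one
  neg_mem' := by
    intro a (ha : χ a = 1)
    change χ (-a) = 1
    have h1 : χ (-a + a) = 1 := by rw [neg_add_cancel]; exact χ.map_zero_eq_one
    rw [AddChar.map_add_eq_mul, ha, mul_one] at h1
    exact h1

lemma mem_chKer {χ : AddChar A ℂ} {x : A} : x ∈ chKer χ ↔ χ x = 1 := Iff.rfl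

open Classical in
/-- for each character there is a signed function which is correlated with it and is an
eigenfunction of all subgroup sums -/
lemma char_signed (χ : AddChar A ℂ) :
    ∃ f : A → ℝ, (∀ x, f x = -1 ∨ f x = 0 ∨ f x = 1) ∧
      (∀ C : AddSubgroup A, ∃ μ : ℝ, ∀ x, ∑ y ∈ univ.filter (fun y => y ∈ C), f (x - y) =
        μ * f x) ∧ ∑ x, (f x : ℂ) * χ (-x) ≠ 0 := by
  have hpow : ∀ (n : ℕ) (x : A), χ (n • x) = χ x ^ n := fun n x => χ.map_nsmul_eq_pow n x
  set P : Finset ℕ := (Fintype.card A).primeFactors.filter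
    (fun p => ∃ z : A, χ z ≠ 1 ∧ χ z ^ p = 1) with hPdef
  have hex : ∀ p, ∃ z : A, p ∈ P → χ z ≠ 1 ∧ χ z ^ p = 1 := by
    intro p
    by_cases hp : p ∈ P
    · obtain ⟨z, hz⟩ := (mem_filter.1 hp).2
      exact ⟨z, fun _ => hz⟩
    · exact ⟨0, fun h => absurd h hp⟩
  choose z hz using hex
  obtain ⟨f, h1, h2, h3, -, h5⟩ := exists_signed (chKer χ) z P (fun p hp => by
    refine ⟨Nat.prime_of_mem_primeFactors (mem_filter.1 hp).1, (hz p hp).1, ?_⟩
    rw [mem_chKer, hpow]
    exact (hz p hp).2)
  refine ⟨f, h1, fun C => ?_, ?_⟩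
  · by_cases hC : C ≤ chKer χ
    · refine ⟨((univ.filter fun y => y ∈ C).card : ℝ), fun x => ?_⟩
      have h6 : ∑ y ∈ univ.filter (fun y => y ∈ C), f (x - y) =
          ∑ y ∈ univ.filter (fun y => y ∈ C), f x := by
        refine sum_congr rfl fun y hy => ?_
        rw [sub_eq_add_neg]
        exact h2 x _ ((chKer χ).neg_mem (hC (mem_filter.1 hy).2))
      rw [h6, sum_const, nsmul_eq_mul]
    · obtain ⟨c0, hc0, hc1⟩ := SetLike.not_le_iff_exists.1 hC
      rw [mem_chKer] at hc1
      set e := orderOf (χ c0) with he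
      have hcard : χ c0 ^ Fintype.card A = 1 := by
        rw [← hpow, card_nsmul_eq_zero, χ.map_zero_eq_one]
      have hdvd : e ∣ Fintype.card A := orderOf_dvd_of_pow_eq_one hcard
      have hne : e ≠ 1 := fun h => hc1 (orderOf_eq_one_iff.1 h)
      have hpos : 0 < e := Nat.pos_of_dvd_of_pos hdvd Fintype.card_pos
      set p := e.minFac with hp
      have hpp : p.Prime := Nat.minFac_prime hne
      have hpe : p ∣ e := Nat.minFac_dvd e
      set w : ℂ := χ c0 ^ (e / p) with hw
      have hwp : w ^ p = 1 := by
        rw [hw, ← pow_mul, Nat.div_mul_cancel hpe, he, pow_orderOf_eq_one]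
      have hw1 : w ≠ 1 := by
        intro h
        have h6 := orderOf_dvd_of_pow_eq_one h
        rw [← he] at h6
        have h7 := Nat.le_of_dvd (Nat.div_pos (Nat.le_of_dvd hpos hpe) hpp.pos) h6
        have h8 : e / p < e := Nat.div_lt_self hpos hpp.one_lt
        omega
      have hcw : χ ((e / p) • c0) = w := hpow _ _
      have hpP : p ∈ P := by
        rw [hPdef, mem_filter, Nat.mem_primeFactors]
        exact ⟨⟨hpp, hpe.trans hdvd, Fintype.card_ne_zero⟩, (e / p) • c0,
          by rw [hcw]; exact hw1, by rw [hcw]; exact hwp⟩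
      have : Fact p.Prime := ⟨hpp⟩
      have : NeZero p := ⟨hpp.ne_zero⟩
      have hprim : IsPrimitiveRoot w p := by
        have h6 : orderOf w = p := orderOf_eq_prime hwp hw1
        rw [← h6]
        exact IsPrimitiveRoot.orderOf w
      obtain ⟨i, -, hi⟩ := hprim.eq_pow_of_pow_eq_one (hz p hpP).2
      set c1 := i • ((e / p) • c0) with hc1def
      have hc1C : c1 ∈ C := C.nsmul_mem (C.nsmul_mem hc0 _) _
      have hc1χ : χ c1 = χ (z p) := by rw [hc1def, hpow, hcw, hi]
      have hK : c1 - z p ∈ chKer χ := by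
        rw [mem_chKer]
        have h6 : χ (c1 - z p + z p) = χ c1 := by rw [sub_add_cancel]
        rw [AddChar.map_add_eq_mul, hc1χ] at h6
        have h7 : χ (z p) ≠ 0 := by
          intro h8
          have := (hz p hpP).2
          rw [h8, zero_pow hpp.ne_zero] at this
          exact zero_ne_one this
        exact mul_right_cancel₀ h7 (h6.trans (one_mul _).symm)
      obtain ⟨g, hg, hg'⟩ := h3 p hpP
      refine ⟨0, fun x => ?_⟩
      have h6 : ∑ y ∈ univ.filter (fun y => y ∈ C), f (x - y) =
          ∑ y ∈ univ.filter (fun y => y ∈ C), g (x - y) -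
          ∑ y ∈ univ.filter (fun y => y ∈ C), g (x - (y + c1)) := by
        rw [← sum_sub_distrib]
        refine sum_congr rfl fun y _ => ?_
        rw [hg']
        congr 1
        have h7 : x - y - z p = (x - (y + c1)) + (c1 - z p) := by abel
        rw [h7, hg _ _ hK]
      have h7 : ∑ y ∈ univ.filter (fun y => y ∈ C), g (x - (y + c1)) =
          ∑ y ∈ univ.filter (fun y => y ∈ C), g (x - y) := by
        refine sum_bij (fun y _ => y + c1) ?_ ?_ ?_ ?_
        · intro y hy
          simp only [mem_filter, mem_univ, true_and] at hy ⊢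
          exact C.add_mem hy hc1C
        · intro y _ y' _ h
          exact add_right_cancel h
        · intro y hy
          simp only [mem_filter, mem_univ, true_and] at hy
          exact ⟨y - c1, by simpa using C.sub_mem hy hc1C, by simp⟩
        · intro y _; rfl
      rw [h6, h7, sub_self, zero_mul]
  · have h6 := h5 χ⁻¹ (fun k hk => ?_) (fun p hp => ?_)
    · simpa only [AddChar.inv_apply] using h6
    · rw [AddChar.inv_apply]
      exact (chKer χ).neg_mem hk
    · rw [AddChar.inv_apply]
      intro h
      have h7 := (chKer χ).neg_mem (show -z p ∈ chKer χ from h)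
      rw [neg_neg] at h7
      exact (hz p hp).1 h7

end build

section main

variable {A : Type*} [AddCommGroup A] [Fintype A]

open Classical in
lemma conv_sum (g : A → ℝ) (x : A) (r : AddSubgroup A) :
    ∑ y ∈ univ.filter (fun y => AddSubgroup.zmultiples (x - y) = r), g y =
      ∑ y ∈ univ.filter (fun y => AddSubgroup.zmultiples y = r), g (x - y) := by
  refine sum_bij (fun y _ => x - y) ?_ ?_ ?_ ?_
  · intro y hy
    simpa using hy
  · intro y _ y' _ h
    exact sub_right_injective h
  · intro y hy
    exact ⟨x - y, by simpa using hy, by simp⟩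
  · intro y _; simp

/-- **The abelian signed schemes**: pairs classified by the subgroup generated by the
difference. -/
theorem signed_abel (A : Type*) [AddCommGroup A] [Fintype A] :
    SignedScheme (fun x y : A => AddSubgroup.zmultiples (x - y)) := by
  classical
  have hmem : ∀ χ : AddChar A ℂ, ∃ f : A → ℝ,
      (∀ y0, (fun x => f (x - y0)) ∈
        signedEigen (fun x y : A => AddSubgroup.zmultiples (x - y))) ∧
      ∑ x, (f x : ℂ) * χ (-x) ≠ 0 := by
    intro χ
    obtain ⟨f, h1, h2, h3⟩ := char_signed χ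
    refine ⟨f, fun y0 => ⟨fun x => h1 _, fun r => ?_⟩, h3⟩
    obtain ⟨μ, hμ⟩ := gen_sum (f := f) (fun C => by
      obtain ⟨m, hm⟩ := h2 C
      exact ⟨m, fun x => by rw [← hm x]⟩) r
    refine ⟨μ, fun x => ?_⟩
    have h4 := conv_sum (fun y => f (y - y0)) x r
    have h5 := hμ (x - y0)
    rw [← h5]
    refine Eq.trans ?_ (h4.trans ?_)
    · exact sum_congr (by ext; simp) fun _ _ => rfl
    · refine sum_congr (by ext; simp) fun y _ => ?_
      rw [sub_right_comm]
  refine ⟨⟨fun _ => Or.inr (Or.inr rfl), fun r => ?_⟩, span_eq_top_of_single fun a => ?_⟩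
  · refine ⟨∑ y ∈ univ.filter (fun y : A => AddSubgroup.zmultiples y = r), 1, fun x => ?_⟩
    rw [mul_one]
    exact Eq.trans (sum_congr (by ext; simp) fun _ _ => rfl) (conv_sum (fun _ => 1) x r)
  · have hcard : (Fintype.card A : ℝ) ≠ 0 := by
      exact_mod_cast Fintype.card_ne_zero
    have hone : ∀ χ : AddChar A ℂ, (fun x => (χ (x - a)).re) ∈
        Submodule.span ℝ (signedEigen (fun x y : A => AddSubgroup.zmultiples (x - y))) := by
      intro χ
      obtain ⟨f, hf, hs⟩ := hmem χ
      set s := ∑ x, (f x : ℂ) * χ (-x) with hsdef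
      have h1 : (fun x => (χ (x - a)).re) =
          ∑ y, ((χ (-a) / s * χ y).re) • (fun x => f (x - y)) := by
        ext x
        rw [Finset.sum_apply]
        simp only [Pi.smul_apply, smul_eq_mul]
        have h2 : ∑ y, χ (-a) / s * χ y * (f (x - y) : ℂ) = χ (x - a) := by
          rw [← Equiv.sum_comp (Equiv.subLeft x)
            (fun y => χ (-a) / s * χ y * (f (x - y) : ℂ))]
          simp only [Equiv.subLeft_apply, sub_sub_cancel]
          have h3 : ∀ y, χ (-a) / s * χ (x - y) * (f y : ℂ) =
              (χ (-a) / s * χ x) * ((f y : ℂ) * χ (-y)) := by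
            intro y
            rw [sub_eq_add_neg, AddChar.map_add_eq_mul]; ring
          simp_rw [h3]
          rw [← mul_sum, ← hsdef, sub_eq_add_neg, AddChar.map_add_eq_mul]
          field_simp
        rw [← h2, Complex.re_sum]
        refine sum_congr rfl fun y _ => ?_
        rw [Complex.re_mul_ofReal]
      rw [h1]
      exact Submodule.sum_mem _ fun y _ => Submodule.smul_mem _ _
        (Submodule.subset_span (hf y))
    have h1 : (Pi.single a 1 : A → ℝ) =
        (Fintype.card A : ℝ)⁻¹ • ∑ χ : AddChar A ℂ, (fun x => (χ (x - a)).re) := by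
      ext x
      rw [Pi.smul_apply, Finset.sum_apply, ← Complex.re_sum, AddChar.sum_apply_eq_ite,
        smul_eq_mul, Pi.single_apply]
      by_cases hx : x = a
      · subst hx
        simp [hcard]
      · rw [if_neg hx, if_neg (sub_ne_zero.2 hx)]
        simp
    rw [h1]
    exact Submodule.smul_mem _ _ (Submodule.sum_mem _ fun χ _ => hone χ)

end main

end Vale.Agent.P318.R2.H344
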