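import Vale.Agent.P318.H724.Final
import Vale.Agent.P318.H724.Main

/-!
# Sets with few types of capacities to the outside

`phi`, `glValue`, `IsNegTypeSemimetric` and `cutCap` are defined in
`Vale.Agent.P318.H867.Defs`.
-/

open Finset

namespace Vale.Agent.P318.R2.H344

/-- The capacities between `A` and its complement are, up to the factor `H`, a sum of `k`
products of nonnegative functions. -/
def Ranked {V : Type*} (c : V → V → ℝ) (k : ℕ) (H : ℝ) (A : Finset V) : Prop :=
  ∃ a b : Fin k → V → ℝ, (∀ i x, 0 ≤ a i x) ∧ (∀ i y, 0 ≤ b i y) ∧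
    ∀ x ∈ A, ∀ y ∉ A, ∑ i, a i x * b i y ≤ c x y ∧ c x y ≤ H * ∑ i, a i x * b i y

/-- `A` is `(k, H)`-typed for the capacities `c`: the vertices can be labelled with `k` labels
such that two vertices of `A` with the same label have, up to the factor `H`, the same capacity
to every vertex outside `A`. -/
def Typed {V : Type*} (c : V → V → ℝ) (k : ℕ) (H : ℝ) (A : Finset V) : Prop :=
  ∃ f : V → Fin k, ∀ a ∈ A, ∀ a' ∈ A, f a = f a' → ∀ b ∉ A, c a b ≤ H * c a' b

/-- `A` is the set of leaves of a binary tree such that for every inner node the set of the leaves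
below it satisfies `P`. -/
inductive LeafSet {V : Type*} [DecidableEq V] (P : Finset V → Prop) : Finset V → Prop
  | leaf (v : V) : LeafSet P {v}
  | node (A B : Finset V) : LeafSet P A → LeafSet P B → Disjoint A B → P (A ∪ B) →
      LeafSet P (A ∪ B)

end Vale.Agent.P318.R2.H344
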