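import Vale.Agent.P318.H724.ArvMain
import Vale.Agent.P318.R2.H344.Defs

/-! If most balls of a small radius are large, then the Goemans-Linial relaxation loses only the
square root of the logarithm of `n / m` (the argument of `H724.arv_main`, for given balls), and the
metric relaxation the logarithm. -/

open Finset

set_option linter.unusedSectionVars false

namespace Vale.Agent.P318.R2.H344

open Vale.Agent.P318.H867 Vale.Agent.P318.H724

variable {V : Type*} [Fintype V] [DecidableEq V] [Nontrivial V] {c d : V → V → ℝ}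

/-- **Large balls**: the bound for one negative type semimetric. -/
theorem arv_core (hc : ∀ i j, 0 ≤ c i j) (hsym : ∀ i j, c i j = c j i) {m : ℕ} (hm : 1 ≤ m)
    (hneg : IsNegTypeSemimetric d) {l δ τ : ℝ}
    (hl : l = Real.sqrt (1 + (Nat.log 2 (Fintype.card V / m) : ℝ)))
    (hδ0 : 0 < δ) (hSδ : ∑ x, ∑ y, d x y = δ * (Fintype.card V : ℝ) ^ 2)
    (hτ : τ = δ / (2048000000 * l)) (Gd : Finset V)
    (hGc : 15 * (Fintype.card V : ℝ) ≤ 16 * Gd.card)
    (hG : ∀ x ∈ Gd, m ≤ (ball d x τ).card) :
    phi c * ∑ x, ∑ y, d x y ≤ 40000000000000 * l * ∑ x, ∑ y, c x y * d x y := by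
  obtain ⟨⟨X, hX⟩, ht⟩ := hneg
  have hd : ∀ x y, 0 ≤ d x y := fun x y => by rw [hX]; positivity
  have hd0 : ∀ x, d x x = 0 := fun x => by rw [hX]; simp
  have hs : ∀ x y, d x y = d y x := fun x y => by rw [hX, hX, norm_sub_rev]
  obtain ⟨pt, hpt⟩ := coords hX
  have hphi := phi_nonneg hc
  set Q := ∑ x, ∑ y, c x y * d x y with hQ
  have hQ0 : 0 ≤ Q := sum_nonneg fun x _ => sum_nonneg fun y _ => mul_nonneg (hc x y) (hd x y)
  set n : ℝ := (Fintype.card V : ℝ) with hn
  have hn0 : 0 < n := by
    have : 0 < Fintype.card V := Fintype.card_pos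
    rw [hn]; exact_mod_cast this
  set S := ∑ x, ∑ y, d x y with hSdef
  have hS0 : 0 ≤ S := sum_nonneg fun x _ => sum_nonneg fun y _ => hd x y
  set k : ℕ := Nat.log 2 (Fintype.card V / m) with hk
  have hk0 : (0 : ℝ) ≤ k := by positivity
  have hl2 : l ^ 2 = 1 + k := by rw [hl]; exact Real.sq_sqrt (by positivity)
  have hl1 : 1 ≤ l := by
    rw [hl]
    exact Real.one_le_sqrt.2 (by linarith)
  have hl0 : 0 < l := by linarith
  have hRHS : 0 ≤ 40000000000000 * l * Q := by positivity
  have hKQ : ∀ K : ℝ, K ≤ 40000000000000 * l → K * Q ≤ 40000000000000 * l * Q := by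
    intro K hK
    exact mul_le_mul_of_nonneg_right hK hQ0
  have hτ0 : 0 < τ := by rw [hτ]; positivity
  have hδτ : δ / τ = 2048000000 * l := by rw [hτ]; field_simp
  have hτδ : 4 * τ ≤ δ / 32 := by
    rw [hτ, ← mul_div_assoc, div_le_div_iff₀ (by positivity) (by norm_num)]
    nlinarith
  rcases em (∃ a, 3 * (Fintype.card V : ℝ) ≤ 4 * (ball d a (δ / 16)).card) with hA | hA
  · obtain ⟨a, ha⟩ := hA
    have h1 := case_ball hc hsym hd hs ht hδ0 hSδ a ha
    exact h1.trans (hKQ _ (by linarith))
  push Not at hA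
  obtain ⟨R0, hR0, hR0c, p, hp, hpR⟩ := exists_net hs hd0 ht Gd hτ0 hG
  have hGpos : (0 : ℝ) < Gd.card := by linarith
  have hGne : Gd.Nonempty := by
    rw [← card_pos]; exact_mod_cast hGpos
  have : Nonempty {x // x ∈ Gd} := ⟨⟨hGne.choose, hGne.choose_spec⟩⟩
  set x' : {x // x ∈ Gd} → Fin (Fintype.card V) → ℝ := fun i => pt (p i) with hx'
  have hsq : ∀ i j, sqd x' i j = d (p i) (p j) := fun i j => hpt _ _
  have hclose : ∀ i j : {x // x ∈ Gd}, |d (p i) (p j) - d i j| ≤ 4 * τ := by
    intro i j
    have h1 := (hp i i.2).2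
    have h2 := (hp j j.2).2
    have h3 := ht (p i) i (p j)
    have h4 := ht i j (p j)
    have h5 := ht i (p i) j
    have h6 := ht (p i) (p j) j
    rw [hs (p i) i] at h3
    rw [hs (p j) j] at h6
    rw [abs_le]
    constructor <;> linarith
  set R : Finset {x // x ∈ Gd} := univ.filter fun i => (i : V) ∈ R0 with hR
  have hRrep : ∀ i, ∃ j ∈ R, x' j = x' i := by
    intro i
    have h1 := (hp i i.2).1
    refine ⟨⟨p i, hR0 h1⟩, ?_, ?_⟩
    · rw [hR, mem_filter]; exact ⟨mem_univ _, h1⟩
    · simp only [hx']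
      rw [hpR _ h1]
  have hRcard : R.card ≤ R0.card := by
    apply card_le_card_of_injOn (s := R) (t := R0) (fun i : {x // x ∈ Gd} => (i : V))
    · intro i hi
      have hi' : i ∈ R := by simpa using hi
      rw [hR, mem_filter] at hi'
      exact hi'.2
    · intro i _ j _ hij
      exact Subtype.ext hij
  have hlog : Real.log R.card ≤ l ^ 2 := by
    rw [hl2]
    have h1 : R.card ≤ Fintype.card V / m :=
      hRcard.trans ((Nat.le_div_iff_mul_le (by omega)).2 hR0c)
    have h2 : R.card < 2 ^ (k + 1) :=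
      lt_of_le_of_lt h1 (Nat.lt_pow_succ_log_self (by norm_num) _)
    have h3 : 0 < R.card := by
      obtain ⟨j, hj, -⟩ := hRrep (Classical.arbitrary _)
      exact card_pos.2 ⟨j, hj⟩
    have h4 : Real.log R.card ≤ Real.log ((2 : ℝ) ^ (k + 1)) := by
      apply Real.log_le_log (by exact_mod_cast h3)
      exact_mod_cast h2.le
    rw [Real.log_pow] at h4
    have h5 : Real.log 2 ≤ 1 := by
      have := Real.log_two_lt_d9
      linarith
    push_cast at h4
    nlinarith
  set σ : ℝ := Real.sqrt (δ / 128) with hσ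
  have hσ0 : 0 < σ := Real.sqrt_pos.2 (by positivity)
  have hσ2 : σ ^ 2 = δ / 128 := Real.sq_sqrt (by positivity)
  have hcardG : (Fintype.card {x // x ∈ Gd} : ℝ) = Gd.card := by
    rw [Fintype.card_coe]
  have hGn : (Gd.card : ℝ) ≤ n := by
    rw [hn]; exact_mod_cast card_le_univ _
  have hP : (Fintype.card {x // x ∈ Gd} : ℝ) ^ 2 ≤ 6 * ((univ.filter fun q :
      {x // x ∈ Gd} × {x // x ∈ Gd} => 4 * σ ^ 2 ≤ sqd x' q.1 q.2).card : ℝ) := by
    rw [hcardG]
    have h1 : ∀ i : {x // x ∈ Gd}, 3 / 16 * n ≤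
        ((univ.filter fun j : {x // x ∈ Gd} => (j : V) ∉ ball d i (δ / 16)).card : ℝ) := by
      intro i
      rw [card_sub]
      have h2 : (Gd.card : ℝ) ≤ (Gd \ ball d i (δ / 16)).card + (ball d i (δ / 16)).card := by
        have : Gd.card ≤ (Gd \ ball d i (δ / 16)).card + (ball d i (δ / 16)).card := by
          rw [card_sdiff_add_card]
          exact card_le_card subset_union_left
        exact_mod_cast this
      have h3 := hA i
      linarith
    have h2 : (Gd.card : ℝ) * (3 / 16 * n) ≤ ((univ.filter fun q :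
        {x // x ∈ Gd} × {x // x ∈ Gd} => 4 * σ ^ 2 ≤ sqd x' q.1 q.2).card : ℝ) := by
      calc (Gd.card : ℝ) * (3 / 16 * n) = ∑ _i : {x // x ∈ Gd}, 3 / 16 * n := by
            rw [sum_const, card_univ, nsmul_eq_mul, hcardG]
        _ ≤ ∑ i : {x // x ∈ Gd},
            ((univ.filter fun j : {x // x ∈ Gd} => (j : V) ∉ ball d i (δ / 16)).card : ℝ) :=
            sum_le_sum fun i _ => h1 i
        _ = ((univ.filter fun q : {x // x ∈ Gd} × {x // x ∈ Gd} =>
            (q.2 : V) ∉ ball d q.1 (δ / 16)).card : ℝ) := by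
            have : (univ.filter fun q : {x // x ∈ Gd} × {x // x ∈ Gd} =>
                (q.2 : V) ∉ ball d q.1 (δ / 16)).card = ∑ i : {x // x ∈ Gd},
                (univ.filter fun j : {x // x ∈ Gd} => (j : V) ∉ ball d i (δ / 16)).card := by
              rw [card_filter, Fintype.sum_prod_type]
              apply sum_congr rfl
              intro i _
              rw [card_filter]
            rw [this]; push_cast; rfl
        _ ≤ _ := by
            have : (univ.filter fun q : {x // x ∈ Gd} × {x // x ∈ Gd} =>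
                (q.2 : V) ∉ ball d q.1 (δ / 16)) ⊆ (univ.filter fun q :
                {x // x ∈ Gd} × {x // x ∈ Gd} => 4 * σ ^ 2 ≤ sqd x' q.1 q.2) := by
              intro q hq
              rw [mem_filter, mem_ball, not_le] at hq
              rw [mem_filter]
              refine ⟨mem_univ _, ?_⟩
              rw [hσ2, hsq]
              have h3 := abs_le.1 (hclose q.1 q.2)
              have h4 := hq.2
              linarith [h3.1]
            exact_mod_cast card_le_card this
    have h3 : (Gd.card : ℝ) ^ 2 ≤ Gd.card * n := by nlinarith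
    nlinarith
  obtain ⟨A', B', hA'c, hB'c, hsep⟩ := core (x := x') (fun i j k => by
    rw [hsq, hsq, hsq]; exact ht _ _ _) R hRrep hl1 hlog hσ0 hP
  rw [hcardG] at hA'c hB'c
  set A : Finset V := A'.map (Function.Embedding.subtype _) with hAdef
  set B : Finset V := B'.map (Function.Embedding.subtype _) with hBdef
  have hAc : n / 256 ≤ A.card := by rw [hAdef, card_map]; linarith
  have hBc : n / 256 ≤ B.card := by rw [hBdef, card_map]; linarith
  have hAne : A.Nonempty := by
    rw [← card_pos]
    have : (0 : ℝ) < A.card := by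
      have : 0 < n / 256 := by positivity
      linarith
    exact_mod_cast this
  set η : ℝ := δ / (512000000 * l) with hη
  have hη0 : 0 < η := by positivity
  have hητ : 4 * τ = η := by rw [hτ, hη]; field_simp; norm_num
  have hησ : σ ^ 2 / (2000000 * l) = 2 * η := by rw [hσ2, hη]; field_simp; norm_num
  have hAB : ∀ a ∈ A, ∀ b ∈ B, η ≤ d a b := by
    intro a ha b hb
    rw [hAdef, mem_map] at ha
    rw [hBdef, mem_map] at hb
    obtain ⟨i, hi, rfl⟩ := ha
    obtain ⟨j, hj, rfl⟩ := hb
    have h1 := hsep i hi j hj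
    rw [hησ, hsq] at h1
    have h2 := (abs_le.1 (hclose i j)).2
    have h3 : d (Function.Embedding.subtype _ i) (Function.Embedding.subtype _ j) =
      d (i : V) (j : V) := rfl
    rw [h3]
    linarith
  have hfin := sep_bound hc hsym hd0 hs ht hAne hAB
  have h1 : (n / 256) * ((n / 256) * η) ≤ A.card * (B.card * η) :=
    mul_le_mul hAc (mul_le_mul_of_nonneg_right hBc hη0.le)
      (mul_nonneg (by positivity) hη0.le) (Nat.cast_nonneg _)
  have h2 := (mul_le_mul_of_nonneg_left h1 hphi).trans hfin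
  have hηδ : η * (512000000 * l) = δ := by
    rw [hη]; exact div_mul_cancel₀ _ (by positivity)
  have h3 : phi c * ((n / 256) * ((n / 256) * η)) * (65536 * 512000000 * l) =
      phi c * (δ * n ^ 2) := by
    rw [← hηδ]; ring
  rw [hSδ, ← h3]
  calc phi c * ((n / 256) * ((n / 256) * η)) * (65536 * 512000000 * l)
      ≤ Q * (65536 * 512000000 * l) := mul_le_mul_of_nonneg_right h2 (by positivity)
    _ = (65536 * 512000000 * l) * Q := by ring
    _ ≤ _ := hKQ _ (by linarith)

end Vale.Agent.P318.R2.H344
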