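import Vale.Agent.P318.R2.H344.MetricCore

/-! Assembly: one balanced set with few types of outside capacities bounds the gap. -/

open Finset

set_option linter.unusedSectionVars false

namespace Vale.Agent.P318.R2.H344

open Vale.Agent.P318.H867 Vale.Agent.P318.H724

variable {V : Type*} [Fintype V] [DecidableEq V] [Nontrivial V] {c d : V → V → ℝ}

/-- the alternative proved in `GoodRank` -/
def Alternative (c : V → V → ℝ) (k : ℕ) (H : ℝ) : Prop :=
  ∀ d : V → V → ℝ, (∀ x y, 0 ≤ d x y) → (∀ x y, d x y = d y x) →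
    (∀ x y z, d x z ≤ d x y + d y z) → ∀ τ : ℝ, 0 < τ →
    phi c * (τ * (Fintype.card V : ℝ) ^ 2) ≤ 768 * H * ∑ x, ∑ y, c x y * d x y ∨
      ∃ Gd : Finset V, 15 * (Fintype.card V : ℝ) ≤ 16 * Gd.card ∧
        ∀ x ∈ Gd, Fintype.card V ≤ 32 * k * (ball d x τ).card

/-- the number of points asked for in a large ball -/
lemma num_facts {N k : ℕ} (hN : 1 ≤ N) (hk : 1 ≤ k) :
    1 ≤ (N - 1) / (32 * k) + 1 ∧ (∀ b, N ≤ 32 * k * b → (N - 1) / (32 * k) + 1 ≤ b) ∧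
      Nat.log 2 (N / ((N - 1) / (32 * k) + 1)) ≤ 5 + Nat.log 2 k := by
  have h32 : 0 < 32 * k := by omega
  refine ⟨Nat.le_add_left 1 _, fun b hb => ?_, ?_⟩
  · have h1 : (N - 1) / (32 * k) < b := by
      rw [Nat.div_lt_iff_lt_mul h32, mul_comm]
      omega
    omega
  · have h1 : N ≤ ((N - 1) / (32 * k) + 1) * (32 * k) := by
      have h2 := Nat.lt_div_mul_add h32 (a := N - 1)
      rw [add_mul, one_mul]
      omega
    have h2 : N / ((N - 1) / (32 * k) + 1) ≤ 32 * k := Nat.div_le_of_le_mul h1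
    have h3 : Nat.log 2 (32 * k) < 6 + Nat.log 2 k := by
      apply Nat.log_lt_of_lt_pow (by omega)
      have h4 := Nat.lt_pow_succ_log_self (b := 2) (by norm_num) k
      calc 32 * k < 32 * 2 ^ (Nat.log 2 k).succ := by
            exact Nat.mul_lt_mul_of_pos_left h4 (by norm_num)
        _ = 2 ^ (6 + Nat.log 2 k) := by
            rw [pow_add, pow_succ]; ring
    have h4 := Nat.log_mono_right (b := 2) h2
    omega

theorem metric_bound (hc : ∀ i j, 0 ≤ c i j) (hsym : ∀ i j, c i j = c j i) {k : ℕ}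
    (hk : 1 ≤ k) {H : ℝ} (hH : 1 ≤ H) (halt : Alternative c k H)
    (hd : ∀ x y, 0 ≤ d x y) (hs : ∀ x y, d x y = d y x)
    (ht : ∀ x y z, d x z ≤ d x y + d y z) :
    phi c * ∑ x, ∑ y, d x y ≤ 52434 * (H + (Nat.log 2 k : ℝ)) * ∑ x, ∑ y, c x y * d x y := by
  have hQ0 : 0 ≤ ∑ x, ∑ y, c x y * d x y :=
    sum_nonneg fun x _ => sum_nonneg fun y _ => mul_nonneg (hc x y) (hd x y)
  have hN1 : 1 ≤ Fintype.card V := Fintype.card_pos
  have hn0 : (0 : ℝ) < Fintype.card V := by exact_mod_cast hN1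
  have hlog : (0 : ℝ) ≤ (Nat.log 2 k : ℝ) := Nat.cast_nonneg _
  have hS0 : 0 ≤ ∑ x, ∑ y, d x y := sum_nonneg fun x _ => sum_nonneg fun y _ => hd x y
  rcases hS0.eq_or_lt with hS00 | hSpos
  · rw [← hS00, mul_zero]; positivity
  obtain ⟨δ, hδ0, hSδ⟩ : ∃ δ : ℝ, 0 < δ ∧
      ∑ x, ∑ y, d x y = δ * (Fintype.card V : ℝ) ^ 2 :=
    ⟨(∑ x, ∑ y, d x y) / (Fintype.card V : ℝ) ^ 2, by positivity, by field_simp⟩
  rcases halt d hd hs ht (δ / 64) (by positivity) with h | ⟨Gd, hGc, hG⟩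
  · have h1 : phi c * (δ / 64 * (Fintype.card V : ℝ) ^ 2) =
        phi c * (δ * (Fintype.card V : ℝ) ^ 2) / 64 := by ring
    rw [h1, ← hSδ] at h
    have h2 : phi c * ∑ x, ∑ y, d x y ≤ 49152 * H * ∑ x, ∑ y, c x y * d x y := by linarith
    refine h2.trans (mul_le_mul_of_nonneg_right ?_ hQ0)
    linarith
  · obtain ⟨hm1, hm2, hm3⟩ := num_facts hN1 hk
    have h1 := metric_core hc hsym hd hs ht hm1 hδ0 hSδ Gd hGc
      (fun x hx => hm2 _ (hG x hx))
    refine h1.trans (mul_le_mul_of_nonneg_right ?_ hQ0)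
    have h2 : (Nat.log 2 (Fintype.card V / ((Fintype.card V - 1) / (32 * k) + 1)) : ℝ) ≤
        5 + (Nat.log 2 k : ℝ) := by exact_mod_cast hm3
    linarith

theorem neg_bound (hc : ∀ i j, 0 ≤ c i j) (hsym : ∀ i j, c i j = c j i) {k : ℕ}
    (hk : 1 ≤ k) {H : ℝ} (hH : 1 ≤ H) (halt : Alternative c k H)
    (hneg : IsNegTypeSemimetric d) :
    phi c * ∑ x, ∑ y, d x y ≤
      100000000000000 * H * Real.sqrt (1 + (Nat.log 2 k : ℝ)) * ∑ x, ∑ y, c x y * d x y := by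
  obtain ⟨⟨X, hX⟩, ht⟩ := id hneg
  have hd : ∀ x y, 0 ≤ d x y := fun x y => by rw [hX]; positivity
  have hs : ∀ x y, d x y = d y x := fun x y => by rw [hX, hX, norm_sub_rev]
  have hQ0 : 0 ≤ ∑ x, ∑ y, c x y * d x y :=
    sum_nonneg fun x _ => sum_nonneg fun y _ => mul_nonneg (hc x y) (hd x y)
  have hN1 : 1 ≤ Fintype.card V := Fintype.card_pos
  have hn0 : (0 : ℝ) < Fintype.card V := by exact_mod_cast hN1
  have hlog : (0 : ℝ) ≤ (Nat.log 2 k : ℝ) := Nat.cast_nonneg _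
  have hS0 : 0 ≤ ∑ x, ∑ y, d x y := sum_nonneg fun x _ => sum_nonneg fun y _ => hd x y
  rcases hS0.eq_or_lt with hS00 | hSpos
  · rw [← hS00, mul_zero]; positivity
  obtain ⟨δ, hδ0, hSδ⟩ : ∃ δ : ℝ, 0 < δ ∧
      ∑ x, ∑ y, d x y = δ * (Fintype.card V : ℝ) ^ 2 :=
    ⟨(∑ x, ∑ y, d x y) / (Fintype.card V : ℝ) ^ 2, by positivity, by field_simp⟩
  obtain ⟨hm1, hm2, hm3⟩ := num_facts hN1 hk
  set m : ℕ := (Fintype.card V - 1) / (32 * k) + 1 with hm
  set l : ℝ := Real.sqrt (1 + (Nat.log 2 (Fintype.card V / m) : ℝ)) with hl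
  have hl1 : 1 ≤ l := by
    rw [hl]
    exact Real.one_le_sqrt.2 (by
      have : (0 : ℝ) ≤ (Nat.log 2 (Fintype.card V / m) : ℝ) := Nat.cast_nonneg _
      linarith)
  have hl2 : 2 * l ≤ 5 * Real.sqrt (1 + (Nat.log 2 k : ℝ)) := by
    have h2 : (Nat.log 2 (Fintype.card V / m) : ℝ) ≤ 5 + (Nat.log 2 k : ℝ) := by
      exact_mod_cast hm3
    have h3 : l ≤ Real.sqrt ((5 / 2) ^ 2 * (1 + (Nat.log 2 k : ℝ))) := by
      rw [hl]
      apply Real.sqrt_le_sqrt
      nlinarith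
    rw [Real.sqrt_mul (by norm_num), Real.sqrt_sq (by norm_num)] at h3
    linarith
  have hτ0 : 0 < δ / (2048000000 * l) := by positivity
  have hgoal : 40000000000000 * l ≤
      100000000000000 * H * Real.sqrt (1 + (Nat.log 2 k : ℝ)) := by
    have h3 : 0 ≤ Real.sqrt (1 + (Nat.log 2 k : ℝ)) := Real.sqrt_nonneg _
    nlinarith
  rcases halt d hd hs ht _ hτ0 with h | ⟨Gd, hGc, hG⟩
  · have h1 : phi c * (δ / (2048000000 * l) * (Fintype.card V : ℝ) ^ 2) * (2048000000 * l) =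
        phi c * (δ * (Fintype.card V : ℝ) ^ 2) := by field_simp
    have h2 := mul_le_mul_of_nonneg_right h (show 0 ≤ 2048000000 * l by positivity)
    rw [h1, ← hSδ] at h2
    refine h2.trans ?_
    have h3 : 768 * H * (∑ x, ∑ y, c x y * d x y) * (2048000000 * l) =
        (768 * 2048000000 * H * l) * ∑ x, ∑ y, c x y * d x y := by ring
    rw [h3]
    refine mul_le_mul_of_nonneg_right ?_ hQ0
    have h4 : 0 ≤ H := by linarith
    have h5 := mul_le_mul_of_nonneg_left hl2 h4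
    nlinarith
  · have h1 := arv_core hc hsym hm1 hneg hl hδ0 hSδ rfl Gd hGc
      (fun x hx => hm2 _ (hG x hx))
    exact h1.trans (mul_le_mul_of_nonneg_right hgoal hQ0)

theorem gap_bound (hc : ∀ i j, 0 ≤ c i j) (hsym : ∀ i j, c i j = c j i) {k : ℕ}
    (hk : 1 ≤ k) {H : ℝ} (hH : 1 ≤ H) (halt : Alternative c k H) :
    phi c ≤ 100000000000000 * H * Real.sqrt (1 + (Nat.log 2 k : ℝ)) * glValue c :=
  phi_le_gl' (by
    have : 0 < Real.sqrt (1 + (Nat.log 2 k : ℝ)) := Real.sqrt_pos.2 (by positivity)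
    positivity) fun _ hneg => neg_bound hc hsym hk hH halt hneg

end Vale.Agent.P318.R2.H344
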