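import Vale.Agent.P318.R2.H344.Assembly
import Vale.Agent.P318.R2.H305.GoodRank
import Vale.Agent.P318.R2.H821.Forms

/-! The gap for capacities with one balanced cut of small nonnegative rank, and for trees. -/

open Finset

set_option linter.unusedSectionVars false

namespace Vale.Agent.P318.R2.H344

open Vale.Agent.P318.H867 Vale.Agent.P318.H724 Vale.Agent.P318.R2.H821

/-- `V` has a balanced subset satisfying `P`, or it is the leaf set of a tree of sets satisfying
`P`. -/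
def Cuttable (V : Type*) [Fintype V] [DecidableEq V] (P : Finset V → Prop) : Prop :=
  (∃ A : Finset V, Fintype.card V ≤ 3 * A.card ∧ 3 * A.card ≤ 2 * Fintype.card V ∧ P A) ∨
    LeafSet P (univ : Finset V)

variable {V : Type*} [Fintype V] [DecidableEq V] [Nontrivial V] {c : V → V → ℝ}

lemma ranked_singleton (hc : ∀ i j, 0 ≤ c i j) {k : ℕ} (hk : 1 ≤ k) {H : ℝ} (hH : 1 ≤ H)
    (v : V) : Ranked c k H {v} := by
  refine ranked_of_typed hc ⟨fun _ => ⟨0, hk⟩, fun a ha a' ha' _ b _ => ?_⟩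
  rw [mem_singleton] at ha ha'
  subst ha ha'
  have := hc a' b
  nlinarith

lemma alternative_of_cuttable (hc : ∀ i j, 0 ≤ c i j) (hsym : ∀ i j, c i j = c j i) {k : ℕ}
    (hk : 1 ≤ k) {H : ℝ} (hH : 1 ≤ H) (h : Cuttable V (Ranked c k H)) : Alternative c k H := by
  obtain ⟨A, h1, h2, h3⟩ : ∃ A : Finset V, Fintype.card V ≤ 3 * A.card ∧
      3 * A.card ≤ 2 * Fintype.card V ∧ Ranked c k H A := by
    rcases h with h | h
    · exact h
    · have h2 : 2 ≤ Fintype.card V := Fintype.one_lt_card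
      obtain ⟨B, hB, h3, h4⟩ := h.balanced (ranked_singleton hc hk hH) h2
        (by rw [card_univ]; omega)
      exact ⟨B, h3, h4, hB⟩
  intro d hd hs ht τ hτ
  exact Vale.Agent.P318.R2.H305.good_rank hc hsym hd hs ht h1 h2 hH h3 hτ

theorem main (hc : ∀ i j, 0 ≤ c i j) (hsym : ∀ i j, c i j = c j i) {k : ℕ}
    (hk : 1 ≤ k) {H : ℝ} (hH : 1 ≤ H) (h : Cuttable V (Ranked c k H)) :
    phi c ≤ 100000000000000 * H * Real.sqrt (1 + (Nat.log 2 k : ℝ)) * glValue c ∧
    ∀ d : V → V → ℝ, (∀ i, d i i = 0) → (∀ i j, d i j = d j i) →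
      (∀ i j k, d i k ≤ d i j + d j k) →
      phi c * ∑ i, ∑ j, d i j ≤ 52434 * (H + (Nat.log 2 k : ℝ)) * ∑ i, ∑ j, c i j * d i j := by
  have halt := alternative_of_cuttable hc hsym hk hH h
  refine ⟨gap_bound hc hsym hk hH halt, fun d hd0 hs ht => ?_⟩
  refine metric_bound hc hsym hk hH halt (fun x y => ?_) hs ht
  have h1 := ht x y x
  rw [hd0, hs y x] at h1
  linarith

lemma Cuttable.mono {P Q : Finset V → Prop} (h : ∀ A, P A → Q A) (hP : Cuttable V P) :
    Cuttable V Q := by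
  rcases hP with ⟨A, h1, h2, h3⟩ | hP
  · exact Or.inl ⟨A, h1, h2, h _ h3⟩
  · exact Or.inr (hP.mono h)

theorem main01 (h01 : ∀ i j, c i j = 0 ∨ c i j = 1) (hsym : ∀ i j, c i j = c j i) {r : ℕ}
    (h : Cuttable V (fun A => cutRank c A ≤ r)) :
    phi c ≤ 100000000000000 * Real.sqrt (1 + (r : ℝ)) * glValue c ∧
    ∀ d : V → V → ℝ, (∀ i, d i i = 0) → (∀ i j, d i j = d j i) →
      (∀ i j k, d i k ≤ d i j + d j k) →
      phi c * ∑ i, ∑ j, d i j ≤ 52434 * (1 + (r : ℝ)) * ∑ i, ∑ j, c i j * d i j := by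
  have hc : ∀ i j, 0 ≤ c i j := by
    intro i j
    rcases h01 i j with h | h <;> rw [h]
    norm_num
  have h1 := main hc hsym (k := 2 ^ r) Nat.one_le_two_pow (H := 1) le_rfl
    (h.mono fun A hA => ranked_of_typed hc (typed_of_cutRank h01 hA))
  rw [Nat.log_pow (by norm_num), mul_one] at h1
  exact h1

end Vale.Agent.P318.R2.H344
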