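import Vale.Agent.P318.R2.H344.ArvCore

/-! Large balls: the bound for one semimetric; balanced members of a tree of sets. -/

open Finset

set_option linter.unusedSectionVars false

namespace Vale.Agent.P318.R2.H344

open Vale.Agent.P318.H867 Vale.Agent.P318.H724

variable {V : Type*} [Fintype V] [DecidableEq V] [Nontrivial V] {c d : V → V → ℝ}

/-- **Large balls**: the bound for one semimetric. -/
theorem metric_core (hc : ∀ i j, 0 ≤ c i j) (hsym : ∀ i j, c i j = c j i)
    (hd : ∀ x y, 0 ≤ d x y) (hs : ∀ x y, d x y = d y x) (ht : ∀ x y z, d x z ≤ d x y + d y z)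
    {m : ℕ} (hm : 1 ≤ m) {δ : ℝ} (hδ0 : 0 < δ)
    (hSδ : ∑ x, ∑ y, d x y = δ * (Fintype.card V : ℝ) ^ 2) (Gd : Finset V)
    (hGc : 15 * (Fintype.card V : ℝ) ≤ 16 * Gd.card)
    (hG : ∀ x ∈ Gd, m ≤ (ball d x (δ / 64)).card) :
    phi c * ∑ x, ∑ y, d x y ≤
      8739 * ((Nat.log 2 (Fintype.card V / m) : ℝ) + 1) * ∑ x, ∑ y, c x y * d x y := by
  have hQ0 : 0 ≤ ∑ x, ∑ y, c x y * d x y :=
    sum_nonneg fun x _ => sum_nonneg fun y _ => mul_nonneg (hc x y) (hd x y)
  rcases em (∃ a, 3 * (Fintype.card V : ℝ) ≤ 4 * (ball d a (δ / 16)).card) with hA | hA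
  · obtain ⟨a, ha⟩ := hA
    refine (case_ball hc hsym hd hs ht hδ0 hSδ a ha).trans
      (mul_le_mul_of_nonneg_right ?_ hQ0)
    have : (0 : ℝ) ≤ (Nat.log 2 (Fintype.card V / m) : ℝ) := Nat.cast_nonneg _
    linarith
  · push Not at hA
    have hL : Fintype.card V < m * 2 ^ (Nat.log 2 (Fintype.card V / m) + 1) := by
      have h1 := Nat.lt_pow_succ_log_self (b := 2) (by norm_num) (Fintype.card V / m)
      rw [Nat.div_lt_iff_lt_mul (by omega)] at h1
      rw [mul_comm]
      exact h1
    have h1 := case_pairs hc hsym hd hs ht hδ0 hm (L := Nat.log 2 (Fintype.card V / m) + 1)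
      (by omega) hL le_rfl Gd hG hGc (fun a => (hA a).le)
    rw [hSδ]
    push_cast at h1
    exact h1

end Vale.Agent.P318.R2.H344

namespace Vale.Agent.P318.R2.H344

lemma LeafSet.mono {V : Type*} [DecidableEq V] {P Q : Finset V → Prop} (h : ∀ A, P A → Q A)
    {A : Finset V} (hA : LeafSet P A) : LeafSet Q A := by
  induction hA with
  | leaf v => exact .leaf v
  | node A B _ _ hd hP ihA ihB => exact .node A B ihA ihB hd (h _ hP)

/-- A tree of sets with at least `n / 3` elements has a member between `n / 3` and `2 n / 3`. -/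
lemma LeafSet.balanced {V : Type*} [DecidableEq V] {P : Finset V → Prop} (h1 : ∀ v, P {v})
    {n : ℕ} (hn : 2 ≤ n) {A : Finset V} (hA : LeafSet P A) (hcard : n ≤ 3 * A.card) :
    ∃ B, P B ∧ n ≤ 3 * B.card ∧ 3 * B.card ≤ 2 * n := by
  induction hA with
  | leaf v =>
    rw [card_singleton] at hcard
    exact ⟨{v}, h1 v, by rw [card_singleton]; omega, by rw [card_singleton]; omega⟩
  | node A B _ _ hd hP ihA ihB =>
    rw [card_union_of_disjoint hd] at hcard
    by_cases h : 3 * (A ∪ B).card ≤ 2 * n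
    · exact ⟨A ∪ B, hP, by rw [card_union_of_disjoint hd]; exact hcard, h⟩
    · rw [card_union_of_disjoint hd] at h
      by_cases h2 : n ≤ 3 * A.card
      · exact ihA h2
      · exact ihB (by omega)

end Vale.Agent.P318.R2.H344
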